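import Mathlib

/-! P235 (ST), bumps: one dimensional facts (helper698). -/

namespace Vale.Agent.P235.ST.H698

open Finset

/-- tent function -/
noncomputable def tent (z : ℝ) : ℝ := max 0 (1 - |z|)

theorem tent_nonneg (z : ℝ) : 0 ≤ tent z := le_max_left _ _

theorem tent_le_one (z : ℝ) : tent z ≤ 1 := by
  unfold tent
  exact max_le zero_le_one (by linarith [abs_nonneg z])

theorem tent_eq_zero {z : ℝ} (h : 1 ≤ |z|) : tent z = 0 := by
  unfold tent
  exact max_eq_left (by linarith)

theorem tent_lip (z w : ℝ) : |tent z - tent w| ≤ |z - w| := by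
  unfold tent
  refine (abs_max_sub_max_le_max _ _ _ _).trans ?_
  rw [sub_self, abs_zero]
  refine max_le (abs_nonneg _) ?_
  have : (1 - |z| - (1 - |w|)) = |w| - |z| := by ring
  rw [this, abs_sub_comm z w]
  exact abs_abs_sub_abs_le_abs_sub w z

/-- at most two naturals are at distance `< 1` from `z` -/
theorem card_near (z : ℝ) (N : ℕ) : ((range N).filter fun n : ℕ => |z - (n : ℝ)| < 1).card ≤ 2 := by
  have h : ((range N).filter fun n : ℕ => |z - (n : ℝ)| < 1).card ≤ ({⌊z⌋, ⌊z⌋ + 1} : Finset ℤ).card := by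
    refine Finset.card_le_card_of_injOn (fun n : ℕ => (n : ℤ)) ?_ ?_
    · intro n hn
      have hn' := (Finset.mem_filter.1 hn).2
      rw [abs_lt] at hn'
      have h1 := Int.floor_le z
      have h2 := Int.lt_floor_add_one z
      have h3 : ((⌊z⌋ : ℤ) : ℝ) < ((n : ℤ) : ℝ) + 1 := by push_cast; linarith
      have h4 : ((n : ℤ) : ℝ) < ((⌊z⌋ : ℤ) : ℝ) + 2 := by push_cast; linarith
      have h5 : ⌊z⌋ < (n : ℤ) + 1 := by exact_mod_cast h3
      have h6 : (n : ℤ) < ⌊z⌋ + 2 := by exact_mod_cast h4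
      simp only [Finset.coe_insert, Finset.coe_singleton, Set.mem_insert_iff,
        Set.mem_singleton_iff]
      omega
    · intro a _ b _ hab
      simpa using hab
  exact h.trans Finset.card_le_two

theorem sum_tent_le (z : ℝ) (N : ℕ) : ∑ n ∈ range N, tent (z - n) ≤ 2 := by
  have h : ∑ n ∈ range N, tent (z - n) = ∑ n ∈ (range N).filter (fun n : ℕ => |z - (n : ℝ)| < 1),
      tent (z - n) := by
    symm
    apply Finset.sum_filter_of_ne
    intro n _ hn
    by_contra hc
    exact hn (tent_eq_zero (not_lt.1 hc))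
  rw [h]
  calc _ ≤ ∑ n ∈ (range N).filter (fun n : ℕ => |z - (n : ℝ)| < 1), (1 : ℝ) :=
        Finset.sum_le_sum fun n _ => tent_le_one _
    _ = ((range N).filter fun n : ℕ => |z - (n : ℝ)| < 1).card := by simp
    _ ≤ 2 := by exact_mod_cast card_near z N

theorem sum_tent_diff (z w : ℝ) (N : ℕ) :
    ∑ n ∈ range N, |tent (z - n) - tent (w - n)| ≤ 4 * |z - w| := by
  classical
  set S := (range N).filter (fun n : ℕ => |z - (n : ℝ)| < 1) ∪ (range N).filter (fun n : ℕ => |w - (n : ℝ)| < 1)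
    with hS
  have h : ∑ n ∈ range N, |tent (z - n) - tent (w - n)| = ∑ n ∈ S, |tent (z - n) - tent (w - n)| := by
    symm
    apply Finset.sum_subset
    · intro n hn
      rw [hS, Finset.mem_union, Finset.mem_filter, Finset.mem_filter] at hn
      rcases hn with h | h <;> exact h.1
    · intro n hn hn'
      rw [hS, Finset.mem_union, Finset.mem_filter, Finset.mem_filter, not_or] at hn'
      have h1 : 1 ≤ |z - (n : ℝ)| := by
        by_contra hc
        exact hn'.1 ⟨hn, not_le.1 hc⟩
      have h2 : 1 ≤ |w - (n : ℝ)| := by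
        by_contra hc
        exact hn'.2 ⟨hn, not_le.1 hc⟩
      rw [tent_eq_zero h1, tent_eq_zero h2, sub_self, abs_zero]
  rw [h]
  have hc : (S.card : ℝ) ≤ 4 := by
    have h1 := Finset.card_union_le ((range N).filter (fun n : ℕ => |z - (n : ℝ)| < 1))
      ((range N).filter (fun n : ℕ => |w - (n : ℝ)| < 1))
    have h2 := card_near z N
    have h3 := card_near w N
    have h4 : S.card ≤ 4 := by rw [hS]; omega
    exact_mod_cast h4
  calc _ ≤ ∑ n ∈ S, |z - w| := Finset.sum_le_sum fun n _ => by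
        have := tent_lip (z - n) (w - n)
        have e : z - n - (w - n) = z - w := by ring
        rwa [e] at this
    _ = S.card * |z - w| := by rw [Finset.sum_const, nsmul_eq_mul]
    _ ≤ 4 * |z - w| := mul_le_mul_of_nonneg_right hc (abs_nonneg _)

/-- a tent centre near `z` -/
theorem exists_half {z : ℝ} (hz : 0 ≤ z) {N : ℕ} (hN : z + 2 ≤ N) :
    ∃ n ∈ range N, |z - (n : ℝ)| ≤ 1 / 2 := by
  refine ⟨⌊z + 1 / 2⌋₊, ?_, ?_⟩
  · rw [Finset.mem_range]
    have h1 := Nat.floor_le (show (0 : ℝ) ≤ z + 1 / 2 by linarith)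
    have h2 : ((⌊z + 1 / 2⌋₊ : ℕ) : ℝ) < N := by linarith
    exact_mod_cast h2
  · have h1 := Nat.floor_le (show (0 : ℝ) ≤ z + 1 / 2 by linarith)
    have h2 := Nat.lt_floor_add_one (z + 1 / 2)
    rw [abs_le]
    constructor <;> linarith

theorem tent_half {z : ℝ} (h : |z| ≤ 1 / 2) : 1 / 2 ≤ tent z := by
  unfold tent
  exact le_max_of_le_right (by linarith)

/-- two points at distance `t` are separated by `min t 1 / 3` by one tent -/
theorem exists_sep_aux {z w : ℝ} (hz : 0 ≤ z) (hzw : z ≤ w) {N : ℕ} (hN : w + 2 ≤ N) {t : ℝ}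
    (ht : t ≤ w - z) (ht1 : t ≤ 1) (ht0 : 0 ≤ t) :
    ∃ n ∈ range N, t / 3 ≤ |tent (z - n) - tent (w - n)| := by
  set a := z - ⌊z⌋₊ with ha
  have h1 := Nat.floor_le hz
  have h2 := Nat.lt_floor_add_one z
  have ha0 : 0 ≤ a := by rw [ha]; linarith
  have ha1 : a < 1 := by rw [ha]; linarith
  have hm0 : ⌊z⌋₊ ∈ range N := by
    rw [Finset.mem_range]
    have : ((⌊z⌋₊ : ℕ) : ℝ) < N := by linarith
    exact_mod_cast this
  have hm1 : ⌊z⌋₊ + 1 ∈ range N := by
    rw [Finset.mem_range]
    have : ((⌊z⌋₊ + 1 : ℕ) : ℝ) < N := by push_cast; linarith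
    exact_mod_cast this
  set d := w - z with hd
  have hd0 : 0 ≤ d := by rw [hd]; linarith
  have e1 : z - (⌊z⌋₊ : ℝ) = a := rfl
  have e2 : w - (⌊z⌋₊ : ℝ) = a + d := by rw [ha, hd]; ring
  have e3 : z - ((⌊z⌋₊ + 1 : ℕ) : ℝ) = a - 1 := by push_cast; rw [ha]; ring
  have e4 : w - ((⌊z⌋₊ + 1 : ℕ) : ℝ) = a + d - 1 := by push_cast; rw [ha, hd]; ring
  have f1 : tent (z - (⌊z⌋₊ : ℝ)) = 1 - a := by
    rw [e1]; unfold tent; rw [abs_of_nonneg ha0]; exact max_eq_right (by linarith)
  have f3 : tent (z - ((⌊z⌋₊ + 1 : ℕ) : ℝ)) = a := by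
    rw [e3]; unfold tent; rw [abs_of_nonpos (by linarith)]
    rw [max_eq_right (by linarith)]; ring
  -- case A: β = 1 - a ≥ t / 3
  by_cases hA : t / 3 ≤ 1 - a
  · by_cases hB : a + d ≤ 1
    · -- use n0: tent(w) = 1 - a - d, difference d
      refine ⟨_, hm0, ?_⟩
      rw [f1, e2]
      unfold tent
      rw [abs_of_nonneg (by linarith : (0 : ℝ) ≤ a + d), max_eq_right (by linarith)]
      rw [show 1 - a - (1 - (a + d)) = d by ring, abs_of_nonneg hd0]
      linarith
    · refine ⟨_, hm0, ?_⟩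
      rw [f1, e2, tent_eq_zero (by rw [abs_of_nonneg (by linarith)]; linarith), sub_zero,
        abs_of_nonneg (by linarith)]
      exact hA
  · -- 1 - a < t / 3: use n0 + 1
    rw [not_le] at hA
    refine ⟨_, hm1, ?_⟩
    rw [f3, e4]
    by_cases hC : 1 ≤ |a + d - 1|
    · rw [tent_eq_zero hC, sub_zero, abs_of_nonneg ha0]
      linarith
    · rw [not_le] at hC
      unfold tent
      rw [max_eq_right (by linarith)]
      have h5 : 0 ≤ a + d - 1 := by linarith
      rw [abs_of_nonneg h5]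
      rw [show a - (1 - (a + d - 1)) = d - 2 * (1 - a) by ring]
      rw [abs_of_nonneg (by linarith)]
      linarith

theorem exists_sep {z w : ℝ} (hz : 0 ≤ z) (hw : 0 ≤ w) {N : ℕ} (hNz : z + 2 ≤ N) (hN : w + 2 ≤ N)
    {t : ℝ} (ht : t ≤ |z - w|) (ht1 : t ≤ 1) (ht0 : 0 ≤ t) :
    ∃ n ∈ range N, t / 3 ≤ |tent (z - n) - tent (w - n)| := by
  rcases le_total z w with h | h
  · rw [abs_sub_comm, abs_of_nonneg (by linarith)] at ht
    exact exists_sep_aux hz h hN ht ht1 ht0
  · rw [abs_of_nonneg (by linarith)] at ht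
    obtain ⟨n, hn, h3⟩ := exists_sep_aux hw h hNz ht ht1 ht0
    exact ⟨n, hn, by rwa [abs_sub_comm]⟩

/-- **signs**: the mean of `|∑ ± a i|` is at least `|a j|` -/
theorem sign_mean {I : Type*} [Fintype I] [DecidableEq I] (a : I → ℝ) (j : I) :
    (2 : ℝ) ^ Fintype.card I * |a j| ≤
      ∑ ε : I → Bool, |∑ i, (if ε i then a i else -a i)| := by
  let e : (I → Bool) ≃ (I → Bool) :=
    { toFun := fun ε i => if i = j then ε i else !ε i
      invFun := fun ε i => if i = j then ε i else !ε i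
      left_inv := by intro ε; funext i; by_cases h : i = j <;> simp [h]
      right_inv := by intro ε; funext i; by_cases h : i = j <;> simp [h] }
  have h1 : ∑ ε : I → Bool, |∑ i, (if ε i then a i else -a i)| =
      ∑ ε : I → Bool, |∑ i, (if e ε i then a i else -a i)| :=
    (Equiv.sum_comp e fun ε : I → Bool => |∑ i, (if ε i then a i else -a i)|).symm
  have h2 : ∀ ε : I → Bool, 2 * |a j| ≤ |∑ i, (if ε i then a i else -a i)| +
      |∑ i, (if e ε i then a i else -a i)| := by
    intro ε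
    have h3 : (∑ i, (if ε i then a i else -a i)) + ∑ i, (if e ε i then a i else -a i) =
        2 * (if ε j then a j else -a j) := by
      rw [← Finset.sum_add_distrib]
      rw [Finset.sum_eq_single j]
      · have : e ε j = ε j := by simp [e]
        rw [this]; ring
      · intro i _ hij
        have : e ε i = !ε i := by simp [e, hij]
        rw [this]
        cases ε i <;> simp
      · intro h; exact absurd (Finset.mem_univ _) h
    calc 2 * |a j| = |2 * (if ε j then a j else -a j)| := by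
          rw [abs_mul, abs_of_pos (by norm_num : (0 : ℝ) < 2)]
          split_ifs <;> simp
      _ = |(∑ i, (if ε i then a i else -a i)) + ∑ i, (if e ε i then a i else -a i)| := by rw [h3]
      _ ≤ _ := abs_add_le _ _
  have h4 : ∑ ε : I → Bool, (2 * |a j|) ≤ ∑ ε : I → Bool, (|∑ i, (if ε i then a i else -a i)| +
      |∑ i, (if e ε i then a i else -a i)|) := Finset.sum_le_sum fun ε _ => h2 ε
  rw [Finset.sum_add_distrib, ← h1, Finset.sum_const, Finset.card_univ, nsmul_eq_mul,
    Fintype.card_fun, Fintype.card_bool] at h4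
  push_cast at h4
  linarith

end Vale.Agent.P235.ST.H698
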