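import Vale.Agent.P235.ST.H317.Defs
import Vale.Agent.P235.ST.H698.Tent

/-! P235 (ST), bumps: rows r6, r7 (helper698). -/

namespace Vale.Agent.P235.ST.H698

open Finset SimpleGraph Vale.Agent.P235.STO

variable {V : Type}

/-! ### cut-off in the scale -/

noncomputable def chi (r : ℝ) : ℝ := max 0 (min 1 (min (4 * dl * r - 1) (2 - d1 * r / 2)))

theorem chi_nonneg (r : ℝ) : 0 ≤ chi r := le_max_left _ _

theorem chi_le_one (r : ℝ) : chi r ≤ 1 := max_le zero_le_one (min_le_left _ _)

theorem chi_lip (r s : ℝ) : |chi r - chi s| ≤ 4 * dl * |r - s| := by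
  unfold chi
  have hdl : (0 : ℝ) ≤ dl := by unfold dl; positivity
  have hd1 : (0 : ℝ) ≤ d1 := by unfold d1; positivity
  have h14 : d1 / 2 ≤ 4 * dl := by unfold d1 dl; norm_num
  refine (abs_max_sub_max_le_max _ _ _ _).trans ?_
  rw [sub_self, abs_zero]
  refine max_le (by positivity) ?_
  refine (abs_min_sub_min_le_max _ _ _ _).trans ?_
  rw [sub_self, abs_zero]
  refine max_le (by positivity) ?_
  refine (abs_min_sub_min_le_max _ _ _ _).trans ?_
  refine max_le ?_ ?_
  · rw [show 4 * dl * r - 1 - (4 * dl * s - 1) = 4 * dl * (r - s) by ring, abs_mul,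
      abs_of_nonneg (by positivity : 0 ≤ 4 * dl)]
  · rw [show 2 - d1 * r / 2 - (2 - d1 * s / 2) = (d1 / 2) * (s - r) by ring, abs_mul,
      abs_of_nonneg (by positivity : 0 ≤ d1 / 2), abs_sub_comm s r]
    exact mul_le_mul_of_nonneg_right h14 (abs_nonneg _)

theorem chi_eq_one {r : ℝ} (h1 : 2 ≤ 4 * dl * r) (h2 : d1 * r ≤ 2) : chi r = 1 := by
  unfold chi
  rw [min_eq_left (le_min (by linarith) (by linarith))]
  exact max_eq_right zero_le_one

theorem chi_ne_zero {r : ℝ} (h : chi r ≠ 0) : 1 < 4 * dl * r ∧ d1 * r < 4 := by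
  by_contra hc
  apply h
  unfold chi
  apply max_eq_left
  rw [not_and_or, not_lt, not_lt] at hc
  rcases hc with hc | hc
  · exact (min_le_right _ _).trans ((min_le_left _ _).trans (by linarith))
  · exact (min_le_right _ _).trans ((min_le_right _ _).trans (by linarith))

/-! ### counting scales -/

theorem th_real (k : ℕ) : ((th k : ℤ) : ℝ) = 16 * 2 ^ k := by unfold th; push_cast; ring

theorem th_pos (k : ℕ) : (0 : ℝ) < ((th k : ℤ) : ℝ) := by rw [th_real]; positivity

theorem active {r : ℝ} {k : ℕ} (h : chi (r / th k) ≠ 0) :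
    (16 * 2 ^ k : ℝ) < 4 * dl * r ∧ d1 * r < 4 * (16 * 2 ^ k) := by
  obtain ⟨h1, h2⟩ := chi_ne_zero h
  have hp := th_pos k
  rw [th_real] at hp h1 h2
  constructor
  · have : 4 * dl * (r / (16 * 2 ^ k)) = 4 * dl * r / (16 * 2 ^ k) := by ring
    rw [this, lt_div_iff₀ hp] at h1
    linarith
  · have : d1 * (r / (16 * 2 ^ k)) = d1 * r / (16 * 2 ^ k) := by ring
    rw [this, div_lt_iff₀ hp] at h2
    linarith

theorem card_active (r : ℝ) (K : ℕ) :
    ((range K).filter fun k => chi (r / th k) ≠ 0).card ≤ 79 := by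
  classical
  set S := (range K).filter fun k => chi (r / th k) ≠ 0 with hS
  rcases S.eq_empty_or_nonempty with h | h
  · rw [h]; simp
  · set a := S.min' h with ha
    have haS : a ∈ S := S.min'_mem h
    have hsub : S ⊆ Finset.Ico a (a + 79) := by
      intro k hk
      rw [Finset.mem_Ico]
      refine ⟨S.min'_le k hk, ?_⟩
      by_contra hc
      rw [not_lt] at hc
      have hk' : chi (r / th k) ≠ 0 := by
        have := hk; rw [hS, Finset.mem_filter] at this; exact this.2
      have ha' : chi (r / th a) ≠ 0 := by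
        have := haS; rw [hS, Finset.mem_filter] at this; exact this.2
      have h1 := (active hk').1
      have h2 := (active ha').2
      have h3 : (2 : ℝ) ^ (a + 79) ≤ 2 ^ k := pow_le_pow_right₀ (by norm_num) hc
      rw [pow_add] at h3
      have hd1 : (0 : ℝ) < d1 := by unfold d1; positivity
      have h4 : 4 * dl * r = (2 : ℝ) ^ 77 * (d1 * r) := by
        unfold dl d1; ring
      rw [h4] at h1
      have h5 : (2 : ℝ) ^ 77 * (d1 * r) < 2 ^ 77 * (4 * (16 * 2 ^ a)) :=
        mul_lt_mul_of_pos_left h2 (by positivity)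
      have h6 : (2 : ℝ) ^ 77 * (4 * (16 * 2 ^ a)) = 16 * (2 ^ a * 2 ^ 79) := by ring
      linarith
    calc S.card ≤ (Finset.Ico a (a + 79)).card := Finset.card_le_card hsub
      _ = 79 := by simp

theorem sum_pow_le (S : Finset ℕ) {B : ℝ} (hB : 0 ≤ B) (h : ∀ k ∈ S, (2 : ℝ) ^ k ≤ B) :
    ∑ k ∈ S, (2 : ℝ) ^ k ≤ 2 * B := by
  rcases S.eq_empty_or_nonempty with he | he
  · rw [he]; simp; exact hB
  · have h1 : S ⊆ range (S.max' he + 1) := fun k hk => by
      rw [Finset.mem_range]
      exact Nat.lt_succ_of_le (S.le_max' k hk)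
    calc ∑ k ∈ S, (2 : ℝ) ^ k ≤ ∑ k ∈ range (S.max' he + 1), (2 : ℝ) ^ k :=
          Finset.sum_le_sum_of_subset_of_nonneg h1 fun _ _ _ => by positivity
      _ = 2 ^ (S.max' he + 1) - 1 := by rw [geom_sum_eq (by norm_num)]; norm_num
      _ ≤ 2 * 2 ^ (S.max' he) := by rw [pow_succ]; linarith
      _ ≤ 2 * B := by linarith [h _ (S.max'_mem he)]

/-! ### position in the band -/

variable (W : LWorld V)

noncomputable def hat (k m : ℕ) (x : V) : ℝ :=
  min 1 (min (4 * (W.pos k m x : ℝ) / th k) (4 * ((th k : ℝ) - W.pos k m x) / th k))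

theorem thz_pos (k : ℕ) : (0 : ℤ) < th k := by unfold th; positivity

theorem pos_nonneg (k m : ℕ) (x : V) : 0 ≤ W.pos k m x := Int.emod_nonneg _ (thz_pos k).ne'

theorem pos_lt (k m : ℕ) (x : V) : W.pos k m x < th k := Int.emod_lt_of_pos _ (thz_pos k)

theorem pos_bi (k m : ℕ) (x : V) : th k * W.bi k m x + W.pos k m x = W.u x + m * 2 ^ k := by
  unfold LWorld.bi LWorld.pos
  exact Int.mul_ediv_add_emod _ _

theorem hat_nonneg (k m : ℕ) (x : V) : 0 ≤ hat W k m x := by
  have h1 : (0 : ℝ) ≤ W.pos k m x := by exact_mod_cast pos_nonneg W k m x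
  have h2 : (W.pos k m x : ℝ) ≤ th k := by exact_mod_cast (pos_lt W k m x).le
  have h3 := th_pos k
  unfold hat
  refine le_min zero_le_one (le_min ?_ ?_)
  · exact div_nonneg (by linarith) h3.le
  · exact div_nonneg (by linarith) h3.le

theorem hat_le_one (k m : ℕ) (x : V) : hat W k m x ≤ 1 := min_le_left _ _

theorem hat_mid {k m : ℕ} {x : V} (h : W.mid k m x) : hat W k m x = 1 := by
  unfold hat
  have h3 := th_pos k
  obtain ⟨h1, h2⟩ := h
  have h1' : (4 * 2 ^ k : ℝ) ≤ W.pos k m x := by exact_mod_cast h1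
  have h2' : (W.pos k m x : ℝ) ≤ 12 * 2 ^ k := by exact_mod_cast h2
  rw [th_real] at h3 ⊢
  apply min_eq_left
  refine le_min ?_ ?_
  · rw [le_div_iff₀ h3]; linarith
  · rw [le_div_iff₀ h3]; linarith

theorem hat_same {k m : ℕ} {x y : V} (ha : W.G.Adj x y) (h : W.bi k m x = W.bi k m y) :
    |hat W k m x - hat W k m y| ≤ 4 / th k := by
  have h3 := th_pos k
  have e : W.pos k m x - W.pos k m y = W.u x - W.u y := by
    have h1 := pos_bi W k m x
    have h2 := pos_bi W k m y
    rw [h] at h1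
    linarith
  have hu := W.unit x y ha
  have hp : |(W.pos k m x : ℝ) - W.pos k m y| = 1 := by
    rw [← e] at hu
    exact_mod_cast hu
  unfold hat
  refine (abs_min_sub_min_le_max _ _ _ _).trans ?_
  rw [sub_self, abs_zero]
  refine max_le (by positivity) ?_
  refine (abs_min_sub_min_le_max _ _ _ _).trans ?_
  refine max_le ?_ ?_
  · rw [← sub_div, ← mul_sub, abs_div, abs_mul, hp, abs_of_pos h3,
      abs_of_pos (by norm_num : (0 : ℝ) < 4), mul_one]
  · rw [← sub_div, ← mul_sub, abs_div, abs_mul, abs_of_pos h3,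
      abs_of_pos (by norm_num : (0 : ℝ) < 4)]
    rw [show (th k : ℝ) - W.pos k m x - ((th k : ℝ) - W.pos k m y) =
      -((W.pos k m x : ℝ) - W.pos k m y) by ring, abs_neg, hp, mul_one]

theorem hat_diff_aux {k m : ℕ} {x y : V} (ha : W.G.Adj x y) (h : W.bi k m x < W.bi k m y) :
    hat W k m x + hat W k m y ≤ 4 / th k := by
  have h3 := th_pos k
  have h1 := pos_bi W k m x
  have h2 := pos_bi W k m y
  have hu := W.unit x y ha
  have p1 := pos_nonneg W k m x
  have p2 := pos_lt W k m x
  have p3 := pos_nonneg W k m y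
  have p4 := pos_lt W k m y
  have ht := thz_pos k
  have h5 : th k * (W.bi k m x + 1) ≤ th k * W.bi k m y :=
    mul_le_mul_of_nonneg_left (by omega) ht.le
  have h6 : th k * (W.bi k m x + 1) = th k * W.bi k m x + th k := by ring
  have h7 := abs_le.1 hu.le
  have q1 : W.pos k m y = 0 := by linarith
  have q2 : W.pos k m x = th k - 1 := by linarith
  have a1 : hat W k m y ≤ 0 := by
    unfold hat
    refine (min_le_right _ _).trans ((min_le_left _ _).trans ?_)
    rw [q1]; simp
  have a2 : hat W k m x ≤ 4 / th k := by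
    unfold hat
    refine (min_le_right _ _).trans ((min_le_right _ _).trans ?_)
    rw [q2]; push_cast
    rw [show (th k : ℝ) - ((th k : ℝ) - 1) = 1 by ring, mul_one]
  linarith

theorem hat_diff {k m : ℕ} {x y : V} (ha : W.G.Adj x y) (h : W.bi k m x ≠ W.bi k m y) :
    hat W k m x + hat W k m y ≤ 4 / th k := by
  rcases lt_or_gt_of_ne h with h | h
  · exact hat_diff_aux W ha h
  · rw [add_comm]; exact hat_diff_aux W ha.symm h

/-! ### the family -/

noncomputable def rep (k m : ℕ) (x : V) : V := Quot.out ((W.Bg k m).connectedComponentMk x)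

theorem rep_eq {k m : ℕ} {x y : V} : rep W k m x = rep W k m y ↔ (W.Bg k m).Reachable x y := by
  constructor
  · intro h
    have h1 : (W.Bg k m).connectedComponentMk x = (W.Bg k m).connectedComponentMk y := by
      have e1 : (W.Bg k m).connectedComponentMk (rep W k m x) = (W.Bg k m).connectedComponentMk x :=
        Quot.out_eq _
      have e2 : (W.Bg k m).connectedComponentMk (rep W k m y) = (W.Bg k m).connectedComponentMk y :=
        Quot.out_eq _
      rw [← e1, ← e2, h]
    exact ConnectedComponent.exact h1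
  · intro h
    unfold rep
    rw [ConnectedComponent.sound h]

noncomputable def amp (ρ : V → ℝ) (k m : ℕ) (x : V) : ℝ :=
  (th k / 8) * chi (ρ x / th k) * hat W k m x

noncomputable def zz (k m : ℕ) (x : V) : ℝ := 4 * (W.D k m x : ℝ) / th k

open Classical in
noncomputable def TT (ρ : V → ℝ) (k m : ℕ) (c : V) (n : ℕ) (x : V) : ℝ :=
  if rep W k m x = c then amp W ρ k m x * tent (zz W k m x - n) else 0

theorem amp_nonneg (ρ : V → ℝ) (k m : ℕ) (x : V) : 0 ≤ amp W ρ k m x := by
  unfold amp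
  have := th_pos k
  exact mul_nonneg (mul_nonneg (by positivity) (chi_nonneg _)) (hat_nonneg W k m x)

theorem amp_le (ρ : V → ℝ) (k m : ℕ) (x : V) : amp W ρ k m x ≤ th k / 8 := by
  unfold amp
  have h := th_pos k
  have h1 := chi_nonneg (ρ x / th k)
  have h2 := chi_le_one (ρ x / th k)
  have h3 := hat_nonneg W k m x
  have h4 := hat_le_one W k m x
  calc (th k / 8 : ℝ) * chi (ρ x / th k) * hat W k m x ≤ (th k / 8) * 1 * 1 := by
        apply mul_le_mul _ h4 h3 (by positivity)
        exact mul_le_mul_of_nonneg_left h2 (by positivity)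
    _ = th k / 8 := by ring

theorem amp_le_hat (ρ : V → ℝ) (k m : ℕ) (x : V) : amp W ρ k m x ≤ th k / 8 * hat W k m x := by
  unfold amp
  have h := th_pos k
  refine mul_le_mul_of_nonneg_right ?_ (hat_nonneg W k m x)
  have := mul_le_mul_of_nonneg_left (chi_le_one (ρ x / th k)) (by positivity : (0 : ℝ) ≤ th k / 8)
  linarith

theorem amp_zero {ρ : V → ℝ} {k m : ℕ} {x : V} (h : chi (ρ x / th k) = 0) :
    amp W ρ k m x = 0 := by
  unfold amp; rw [h]; ring

theorem amp_one {ρ : V → ℝ} {k m : ℕ} {x : V} (h : chi (ρ x / th k) = 1) (hm : W.mid k m x) :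
    amp W ρ k m x = th k / 8 := by
  unfold amp; rw [h, hat_mid W hm]; ring

variable [Fintype V]

theorem sum_TT (ρ : V → ℝ) (k m N : ℕ) (x : V) :
    ∑ c, ∑ n ∈ range N, |TT W ρ k m c n x| ≤ 2 * amp W ρ k m x := by
  classical
  rw [Finset.sum_eq_single (rep W k m x)]
  · have : ∀ n ∈ range N, |TT W ρ k m (rep W k m x) n x| = amp W ρ k m x * tent (zz W k m x - n) := by
      intro n _
      unfold TT
      rw [if_pos rfl, abs_of_nonneg (mul_nonneg (amp_nonneg W ρ k m x) (tent_nonneg _))]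
    rw [Finset.sum_congr rfl this, ← Finset.mul_sum]
    have := mul_le_mul_of_nonneg_left (sum_tent_le (zz W k m x) N) (amp_nonneg W ρ k m x)
    linarith
  · intro c _ hc
    apply Finset.sum_eq_zero
    intro n _
    unfold TT
    rw [if_neg (Ne.symm hc), abs_zero]
  · intro h; exact absurd (Finset.mem_univ _) h

theorem edge_le_add (ρ : V → ℝ) (k m N : ℕ) (x y : V) :
    ∑ c, ∑ n ∈ range N, |TT W ρ k m c n x - TT W ρ k m c n y| ≤
      2 * amp W ρ k m x + 2 * amp W ρ k m y := by
  have h1 := sum_TT W ρ k m N x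
  have h2 := sum_TT W ρ k m N y
  have h3 : ∑ c, ∑ n ∈ range N, |TT W ρ k m c n x - TT W ρ k m c n y| ≤
      ∑ c, ∑ n ∈ range N, (|TT W ρ k m c n x| + |TT W ρ k m c n y|) :=
    Finset.sum_le_sum fun c _ => Finset.sum_le_sum fun n _ => abs_sub _ _
  have h4 : ∑ c, ∑ n ∈ range N, (|TT W ρ k m c n x| + |TT W ρ k m c n y|) =
      (∑ c, ∑ n ∈ range N, |TT W ρ k m c n x|) + ∑ c, ∑ n ∈ range N, |TT W ρ k m c n y| := by
    rw [← Finset.sum_add_distrib]
    exact Finset.sum_congr rfl fun c _ => Finset.sum_add_distrib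
  linarith

theorem edge_same (ρ : V → ℝ) (k m N : ℕ) {x y : V} (h : rep W k m x = rep W k m y) :
    ∑ c, ∑ n ∈ range N, |TT W ρ k m c n x - TT W ρ k m c n y| ≤
      2 * |amp W ρ k m x - amp W ρ k m y| + 4 * amp W ρ k m y * |zz W k m x - zz W k m y| := by
  classical
  rw [Finset.sum_eq_single (rep W k m x)]
  · have : ∀ n ∈ range N, |TT W ρ k m (rep W k m x) n x - TT W ρ k m (rep W k m x) n y| ≤
        |amp W ρ k m x - amp W ρ k m y| * tent (zz W k m x - n) +
          amp W ρ k m y * |tent (zz W k m x - n) - tent (zz W k m y - n)| := by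
      intro n _
      unfold TT
      rw [if_pos rfl, if_pos h.symm]
      have e : amp W ρ k m x * tent (zz W k m x - n) - amp W ρ k m y * tent (zz W k m y - n) =
          (amp W ρ k m x - amp W ρ k m y) * tent (zz W k m x - n) +
          amp W ρ k m y * (tent (zz W k m x - n) - tent (zz W k m y - n)) := by ring
      rw [e]
      refine (abs_add_le _ _).trans ?_
      rw [abs_mul, abs_mul, abs_of_nonneg (tent_nonneg _), abs_of_nonneg (amp_nonneg W ρ k m y)]
    refine (Finset.sum_le_sum this).trans ?_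
    rw [Finset.sum_add_distrib, ← Finset.mul_sum, ← Finset.mul_sum]
    have h1 := mul_le_mul_of_nonneg_left (sum_tent_le (zz W k m x) N)
      (abs_nonneg (amp W ρ k m x - amp W ρ k m y))
    have h2 := mul_le_mul_of_nonneg_left (sum_tent_diff (zz W k m x) (zz W k m y) N)
      (amp_nonneg W ρ k m y)
    linarith
  · intro c _ hc
    apply Finset.sum_eq_zero
    intro n _
    unfold TT
    rw [if_neg (Ne.symm hc), if_neg (h ▸ Ne.symm hc), sub_self, abs_zero]
  · intro h; exact absurd (Finset.mem_univ _) h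

/-- one clock, one edge -/
theorem edge_one (hlip : ∀ k m x y, (W.Bg k m).Reachable x y →
      (W.D k m y : ℤ) ≤ W.D k m x + (W.Bg k m).dist x y)
    {ρ : V → ℝ} (hρ : W.Scale ρ) (k m N : ℕ) {x y : V} (ha : W.G.Adj x y) :
    ∑ c, ∑ n ∈ range N, |TT W ρ k m c n x - TT W ρ k m c n y| ≤ 16 / 5 := by
  have hp := th_pos k
  have hd : W.d x y = 1 := by
    unfold LWorld.d
    rw [SimpleGraph.dist_eq_one_iff_adj.2 ha]; norm_num
  by_cases hb : W.bi k m x = W.bi k m y
  · have hadj : (W.Bg k m).Adj x y := ⟨ha, hb⟩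
    have hr : (W.Bg k m).Reachable x y := hadj.reachable
    have hdist : (W.Bg k m).dist x y = 1 := SimpleGraph.dist_eq_one_iff_adj.2 hadj
    have hdist' : (W.Bg k m).dist y x = 1 := SimpleGraph.dist_eq_one_iff_adj.2 hadj.symm
    have h1 := hlip k m x y hr
    have h2 := hlip k m y x hr.symm
    rw [hdist] at h1
    rw [hdist'] at h2
    have hD : |(W.D k m x : ℝ) - W.D k m y| ≤ 1 := by
      have h1' : (W.D k m y : ℝ) ≤ W.D k m x + 1 := by exact_mod_cast h1
      have h2' : (W.D k m x : ℝ) ≤ W.D k m y + 1 := by exact_mod_cast h2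
      rw [abs_le]; constructor <;> linarith
    have hz : |zz W k m x - zz W k m y| ≤ 4 / th k := by
      unfold zz
      rw [← sub_div, ← mul_sub, abs_div, abs_mul, abs_of_pos hp,
        abs_of_pos (by norm_num : (0 : ℝ) < 4)]
      apply div_le_div_of_nonneg_right _ hp.le
      linarith
    have hchi : |chi (ρ x / th k) - chi (ρ y / th k)| ≤ (1 / 2) / th k := by
      refine (chi_lip _ _).trans ?_
      rw [← sub_div, abs_div, abs_of_pos hp]
      have h5 := hρ.lip x y
      rw [hd] at h5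
      have h6 : 4 * dl * (|ρ x - ρ y| / th k) = (4 * dl * |ρ x - ρ y|) / th k := by ring
      rw [h6]
      apply div_le_div_of_nonneg_right _ hp.le
      have h7 : 4 * dl * |ρ x - ρ y| ≤ 4 * dl * (1 / kap) :=
        mul_le_mul_of_nonneg_left h5 (by unfold dl; positivity)
      have h8 : 4 * dl * (1 / kap) = 1 / 2 := by unfold dl kap; norm_num
      linarith
    have hamp : |amp W ρ k m x - amp W ρ k m y| ≤ 9 / 16 := by
      have e : amp W ρ k m x - amp W ρ k m y =
          (th k / 8) * ((chi (ρ x / th k) - chi (ρ y / th k)) * hat W k m x +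
            chi (ρ y / th k) * (hat W k m x - hat W k m y)) := by unfold amp; ring
      rw [e, abs_mul, abs_of_pos (by positivity : (0 : ℝ) < th k / 8)]
      have h5 : |(chi (ρ x / th k) - chi (ρ y / th k)) * hat W k m x +
            chi (ρ y / th k) * (hat W k m x - hat W k m y)| ≤ (1 / 2) / th k + 4 / th k := by
        refine (abs_add_le _ _).trans ?_
        rw [abs_mul, abs_mul, abs_of_nonneg (hat_nonneg W k m x), abs_of_nonneg (chi_nonneg _)]
        have h6 := mul_le_mul hchi (hat_le_one W k m x) (hat_nonneg W k m x) (by positivity)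
        have h7 := mul_le_mul (chi_le_one (ρ y / th k)) (hat_same W ha hb) (abs_nonneg _)
          zero_le_one
        linarith
      have h6 := mul_le_mul_of_nonneg_left h5 (by positivity : (0 : ℝ) ≤ th k / 8)
      have h7 : (th k / 8 : ℝ) * ((1 / 2) / th k + 4 / th k) = 9 / 16 := by
        field_simp; norm_num
      linarith
    have h8 := edge_same W ρ k m N ((rep_eq W).2 hr)
    have h9 : 4 * amp W ρ k m y * |zz W k m x - zz W k m y| ≤ 4 * (th k / 8) * (4 / th k) := by
      apply mul_le_mul _ hz (abs_nonneg _) (by positivity)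
      linarith [amp_le W ρ k m y]
    have h10 : (4 * (th k / 8) * (4 / th k) : ℝ) = 2 := by field_simp; norm_num
    linarith
  · have h1 := hat_diff W ha hb
    have h2 := edge_le_add W ρ k m N x y
    have h3 := amp_le_hat W ρ k m x
    have h4 := amp_le_hat W ρ k m y
    have h5 : (th k / 8 : ℝ) * (hat W k m x + hat W k m y) ≤ (th k / 8) * (4 / th k) :=
      mul_le_mul_of_nonneg_left h1 (by positivity)
    have h6 : (th k / 8 * (4 / th k) : ℝ) = 1 / 2 := by field_simp; norm_num
    linarith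

theorem edge_zero {ρ : V → ℝ} (k m N : ℕ) {x y : V} (hx : chi (ρ x / th k) = 0)
    (hy : chi (ρ y / th k) = 0) :
    ∑ c, ∑ n ∈ range N, |TT W ρ k m c n x - TT W ρ k m c n y| ≤ 0 := by
  have h := edge_le_add W ρ k m N x y
  rw [amp_zero W hx, amp_zero W hy] at h
  linarith

theorem edge_total (hlip : ∀ k m x y, (W.Bg k m).Reachable x y →
      (W.D k m y : ℤ) ≤ W.D k m x + (W.Bg k m).dist x y)
    {ρ : V → ℝ} (hρ : W.Scale ρ) (K N : ℕ) {x y : V} (ha : W.G.Adj x y) :
    ∑ k ∈ range K, ∑ m ∈ range 16, ∑ c, ∑ n ∈ range N, |TT W ρ k m c n x - TT W ρ k m c n y| ≤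
      Cf := by
  classical
  set Sx := (range K).filter fun k => chi (ρ x / th k) ≠ 0 with hSx
  set Sy := (range K).filter fun k => chi (ρ y / th k) ≠ 0 with hSy
  have h1 : ∀ k ∈ range K, ∑ m ∈ range 16, ∑ c, ∑ n ∈ range N,
      |TT W ρ k m c n x - TT W ρ k m c n y| ≤ if k ∈ Sx ∪ Sy then (256 / 5 : ℝ) else 0 := by
    intro k hk
    split_ifs with hc
    · calc _ ≤ ∑ m ∈ range 16, (16 / 5 : ℝ) :=
            Finset.sum_le_sum fun m _ => edge_one W hlip hρ k m N ha
        _ = 256 / 5 := by rw [Finset.sum_const, Finset.card_range]; norm_num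
    · rw [Finset.mem_union, not_or] at hc
      have hx : chi (ρ x / th k) = 0 := by
        by_contra h
        exact hc.1 (Finset.mem_filter.2 ⟨hk, h⟩)
      have hy : chi (ρ y / th k) = 0 := by
        by_contra h
        exact hc.2 (Finset.mem_filter.2 ⟨hk, h⟩)
      calc _ ≤ ∑ m ∈ range 16, (0 : ℝ) :=
            Finset.sum_le_sum fun m _ => edge_zero W k m N hx hy
        _ = 0 := by simp
  refine (Finset.sum_le_sum h1).trans ?_
  rw [← Finset.sum_filter, Finset.sum_const, nsmul_eq_mul]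
  have h2 : ((range K).filter fun k => k ∈ Sx ∪ Sy).card ≤ 158 := by
    calc _ ≤ (Sx ∪ Sy).card := Finset.card_le_card fun k hk => (Finset.mem_filter.1 hk).2
      _ ≤ Sx.card + Sy.card := Finset.card_union_le _ _
      _ ≤ 158 := by
        have h8 : Sx.card ≤ 79 := card_active (ρ x) K
        have h9 : Sy.card ≤ 79 := card_active (ρ y) K
        omega
  have h3 : (((range K).filter fun k => k ∈ Sx ∪ Sy).card : ℝ) ≤ 158 := by exact_mod_cast h2
  unfold Cf
  nlinarith

theorem sum_total {ρ : V → ℝ} (hρ : W.Scale ρ) (K N : ℕ) (x : V) :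
    ∑ k ∈ range K, ∑ m ∈ range 16, ∑ c, ∑ n ∈ range N, |TT W ρ k m c n x| ≤ ρ x := by
  classical
  set Sx := (range K).filter fun k => chi (ρ x / th k) ≠ 0 with hSx
  have hr := hρ.nonneg x
  have h1 : ∀ k ∈ range K, ∑ m ∈ range 16, ∑ c, ∑ n ∈ range N, |TT W ρ k m c n x| ≤
      if k ∈ Sx then (64 * 2 ^ k : ℝ) else 0 := by
    intro k hk
    split_ifs with hc
    · calc _ ≤ ∑ m ∈ range 16, (2 * (th k / 8) : ℝ) :=
            Finset.sum_le_sum fun m _ => (sum_TT W ρ k m N x).trans (by linarith [amp_le W ρ k m x])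
        _ = 64 * 2 ^ k := by
          rw [Finset.sum_const, Finset.card_range, nsmul_eq_mul, th_real]; ring
    · have hx : chi (ρ x / th k) = 0 := by
        by_contra h
        exact hc (Finset.mem_filter.2 ⟨hk, h⟩)
      calc _ ≤ ∑ m ∈ range 16, (0 : ℝ) :=
            Finset.sum_le_sum fun m _ => (sum_TT W ρ k m N x).trans (by rw [amp_zero W hx]; simp)
        _ = 0 := by simp
  refine (Finset.sum_le_sum h1).trans ?_
  rw [← Finset.sum_filter, ← Finset.mul_sum]
  have h2 : ∑ k ∈ (range K).filter (fun k => k ∈ Sx), (2 : ℝ) ^ k ≤ 2 * (dl * ρ x / 4) := by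
    apply sum_pow_le
    · have : (0 : ℝ) ≤ dl := by unfold dl; positivity
      positivity
    · intro k hk
      have h3 := (active (Finset.mem_filter.1 (Finset.mem_filter.1 hk).2).2).1
      linarith
  have h4 : dl ≤ 1 / 32 := by unfold dl; norm_num
  nlinarith

/-! ### separation -/

theorem far {ρ : V → ℝ} {k m N : ℕ} {z y : V} (hm : W.mid k m z)
    (hc : chi (ρ z / th k) = 1) (hN : zz W k m z + 2 ≤ N)
    (h : ¬ (W.Bg k m).Reachable z y ∨ (th k : ℝ) / 2 ≤ |(W.D k m y : ℝ) - W.D k m z|) :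
    ∃ n ∈ range N, (th k : ℝ) / 16 ≤
      |TT W ρ k m (rep W k m z) n z - TT W ρ k m (rep W k m z) n y| := by
  classical
  have hp := th_pos k
  have hz0 : 0 ≤ zz W k m z := by unfold zz; positivity
  obtain ⟨n, hn, h1⟩ := exists_half hz0 hN
  refine ⟨n, hn, ?_⟩
  have hy : TT W ρ k m (rep W k m z) n y = 0 := by
    unfold TT
    split_ifs with he
    · have hr : (W.Bg k m).Reachable z y := (rep_eq W).1 he.symm
      have h2 : (th k : ℝ) / 2 ≤ |(W.D k m y : ℝ) - W.D k m z| := by
        rcases h with h | h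
        · exact absurd hr h
        · exact h
      have h3 : 2 ≤ |zz W k m y - zz W k m z| := by
        unfold zz
        rw [← sub_div, ← mul_sub, abs_div, abs_mul, abs_of_pos hp,
          abs_of_pos (by norm_num : (0 : ℝ) < 4), le_div_iff₀ hp]
        linarith
      have h4 : 1 ≤ |zz W k m y - n| := by
        have h5 := abs_sub_abs_le_abs_sub (zz W k m y - zz W k m z) (-(zz W k m z - n))
        rw [abs_neg, show zz W k m y - zz W k m z - -(zz W k m z - n) = zz W k m y - n by ring] at h5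
        linarith
      rw [tent_eq_zero h4, mul_zero]
    · rfl
  rw [hy, sub_zero]
  unfold TT
  rw [if_pos rfl, amp_one W hc hm, abs_of_nonneg (mul_nonneg (by positivity) (tent_nonneg _))]
  have := mul_le_mul_of_nonneg_left (tent_half h1) (by positivity : (0 : ℝ) ≤ th k / 8)
  linarith

theorem near {ρ : V → ℝ} {k m N : ℕ} {z y : V} (hm : W.mid k m z) (hu : W.u z = W.u y)
    (hc : chi (ρ z / th k) = 1) (hc' : chi (ρ y / th k) = 1)
    (hN : zz W k m z + 2 ≤ N) (hN' : zz W k m y + 2 ≤ N) {v : ℝ} (hv : 0 ≤ v)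
    (hv1 : 24 * v ≤ th k)
    (hr : (W.Bg k m).Reachable z y) (h : 6 * v ≤ |(W.D k m y : ℝ) - W.D k m z|) :
    ∃ n ∈ range N, v ≤
      |TT W ρ k m (rep W k m z) n z - TT W ρ k m (rep W k m z) n y| := by
  classical
  have hp := th_pos k
  have hz0 : 0 ≤ zz W k m z := by unfold zz; positivity
  have hy0 : 0 ≤ zz W k m y := by unfold zz; positivity
  have hm' : W.mid k m y := by
    unfold LWorld.mid LWorld.pos at hm ⊢
    rw [← hu]; exact hm
  have h1 : 24 * v / th k ≤ |zz W k m z - zz W k m y| := by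
    rw [abs_sub_comm]
    unfold zz
    rw [← sub_div, ← mul_sub, abs_div, abs_mul, abs_of_pos hp,
      abs_of_pos (by norm_num : (0 : ℝ) < 4)]
    apply div_le_div_of_nonneg_right _ hp.le
    linarith
  have h2 : 24 * v / th k ≤ 1 := by rw [div_le_one hp]; exact hv1
  obtain ⟨n, hn, h3⟩ := exists_sep hz0 hy0 hN hN' h1 h2 (by positivity)
  refine ⟨n, hn, ?_⟩
  unfold TT
  rw [if_pos rfl, if_pos ((rep_eq W).2 hr).symm, amp_one W hc hm, amp_one W hc' hm', ← mul_sub,
    abs_mul, abs_of_pos (by positivity : (0 : ℝ) < th k / 8)]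
  have h4 := mul_le_mul_of_nonneg_left h3 (by positivity : (0 : ℝ) ≤ th k / 8)
  have h5 : (th k / 8 : ℝ) * (24 * v / th k / 3) = v := by field_simp; ring
  linarith

/-! ### the row -/

/-- target pair of scale function `ρ` (copy of the definition in the rows file) -/
def Tgt (ρ : V → ℝ) (z y : V) : Prop :=
  z ∈ W.N ∧ y ∈ W.N ∧ W.u z = W.u y ∧ W.idx z ≤ W.idx y ∧ r0 ≤ W.d z y ∧
    W.nxt ρ z < W.d z y ∧ W.d z y ≤ ρ z ∧
    (kap * ρ z < 2 * W.d z y ∨ ∃ k m, m < 16 ∧ inList (ρ z) k ∧ W.serves k m z y)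

theorem chi_list {r : ℝ} {k : ℕ} (h1 : (th k : ℝ) ≤ 2 * dl * r) (h2 : d1 * r ≤ 2 * th k) :
    chi (r / th k) = 1 := by
  have hp := th_pos k
  apply chi_eq_one
  · rw [show 4 * dl * (r / th k) = 4 * dl * r / th k by ring, le_div_iff₀ hp]; linarith
  · rw [show d1 * (r / th k) = d1 * r / th k by ring, div_le_iff₀ hp]; linarith

/-- a thickness in `(a / 2, a]` -/
theorem exists_th {a : ℝ} (ha : 16 ≤ a) : ∃ k : ℕ, a / 2 < th k ∧ (th k : ℝ) ≤ a := by
  obtain ⟨k, h1, h2⟩ := exists_nat_pow_near (show (1 : ℝ) ≤ a / 16 by linarith)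
    (show (1 : ℝ) < 2 by norm_num)
  refine ⟨k, ?_, ?_⟩
  · rw [th_real]; rw [pow_succ] at h2; linarith
  · rw [th_real]; linarith

/-- far pairs: a thickness at most `d / 8` in the list separates -/
theorem far_pair (hT : ∀ k m p q, p ∈ W.N → q ∈ W.N → (W.Bg k m).Reachable p q →
      W.idx p ≤ W.idx q → (W.D k m p : ℤ) + (W.Bg k m).dist p q ≤ W.D k m q + 2 * th k)
    (hbi : ∀ k m x y, (W.Bg k m).Reachable x y → W.G.dist x y ≤ (W.Bg k m).dist x y)
    {z y : V} (hz : z ∈ W.N) (hy : y ∈ W.N) (hi : W.idx z ≤ W.idx y) {k m : ℕ}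
    (hk : (th k : ℝ) ≤ W.d z y / 4) :
    ¬ (W.Bg k m).Reachable z y ∨ (th k : ℝ) / 2 ≤ |(W.D k m y : ℝ) - W.D k m z| := by
  by_cases hr : (W.Bg k m).Reachable z y
  · right
    have h1 := hT k m z y hz hy hr hi
    have h2 := hbi k m z y hr
    have h1' : (W.D k m z : ℝ) + (W.Bg k m).dist z y ≤ W.D k m y + 2 * th k := by exact_mod_cast h1
    have h2' : W.d z y ≤ (W.Bg k m).dist z y := by unfold LWorld.d; exact_mod_cast h2
    have hp := th_pos k
    refine le_trans ?_ (le_abs_self _)
    linarith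
  · exact Or.inl hr

theorem bumps_of (hlip : ∀ k m x y, (W.Bg k m).Reachable x y →
      (W.D k m y : ℤ) ≤ W.D k m x + (W.Bg k m).dist x y)
    (hT : ∀ k m p q, p ∈ W.N → q ∈ W.N → (W.Bg k m).Reachable p q →
      W.idx p ≤ W.idx q → (W.D k m p : ℤ) + (W.Bg k m).dist p q ≤ W.D k m q + 2 * th k)
    (hbi : ∀ k m x y, (W.Bg k m).Reachable x y → W.G.dist x y ≤ (W.Bg k m).dist x y)
    (hmid : ∀ k z, ∃ m < 16, W.mid k m z)
    {ρ : V → ℝ} (h : W.Scale ρ) : ∃ (ι : Type) (_ : Fintype ι) (T : ι → V → ℝ),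
    (∀ x y, W.G.Adj x y → ∑ i, |T i x - T i y| ≤ Cf) ∧ (∀ x, ∑ i, |T i x| ≤ ρ x) ∧
    ∀ z y, Tgt W ρ z y → ∃ i, 1 / 2 ^ 32 * W.d z y ≤ |T i z - T i y| := by
  classical
  obtain ⟨K, hK⟩ := pow_unbounded_of_one_lt (∑ x, ρ x) (show (1 : ℝ) < 2 by norm_num)
  have hρK : ∀ x, ρ x < 2 ^ K := fun x => lt_of_le_of_lt
    (Finset.single_le_sum (f := ρ) (fun y _ => h.nonneg y) (Finset.mem_univ x)) hK
  set N : ℕ := (∑ k ∈ range K, ∑ m ∈ range 16, ∑ x, W.D k m x) + 2 with hNdef
  have hN : ∀ k < K, ∀ m < 16, ∀ x, zz W k m x + 2 ≤ N := by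
    intro k hk m hm x
    have h1 : W.D k m x ≤ ∑ k ∈ range K, ∑ m ∈ range 16, ∑ x, W.D k m x := by
      calc W.D k m x ≤ ∑ x, W.D k m x :=
            Finset.single_le_sum (f := fun x => W.D k m x) (fun _ _ => Nat.zero_le _)
              (Finset.mem_univ x)
        _ ≤ ∑ m ∈ range 16, ∑ x, W.D k m x :=
            Finset.single_le_sum (f := fun m => ∑ x, W.D k m x) (fun _ _ => Nat.zero_le _)
              (Finset.mem_range.2 hm)
        _ ≤ _ := Finset.single_le_sum (f := fun k => ∑ m ∈ range 16, ∑ x, W.D k m x)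
              (fun _ _ => Nat.zero_le _) (Finset.mem_range.2 hk)
    have h2 : zz W k m x ≤ W.D k m x := by
      unfold zz
      rw [div_le_iff₀ (th_pos k), th_real]
      have h3 : (1 : ℝ) ≤ 2 ^ k := one_le_pow₀ (by norm_num)
      have h4 : (0 : ℝ) ≤ W.D k m x := Nat.cast_nonneg _
      nlinarith
    rw [hNdef]
    have h5 : (W.D k m x : ℝ) ≤ ((∑ k ∈ range K, ∑ m ∈ range 16, ∑ x, W.D k m x : ℕ) : ℝ) := by
      exact_mod_cast h1
    push_cast at h5 ⊢
    linarith
  refine ⟨Fin K × Fin 16 × V × Fin N, inferInstance,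
    fun i x => TT W ρ i.1 i.2.1 i.2.2.1 i.2.2.2 x, ?_, ?_, ?_⟩
  · intro x y ha
    have h1 := edge_total W hlip h K N ha
    rw [Fintype.sum_prod_type]
    simp only [Fintype.sum_prod_type]
    rw [Finset.sum_range] at h1
    simp only [Finset.sum_range] at h1
    exact h1
  · intro x
    have h1 := sum_total W h K N x
    rw [Fintype.sum_prod_type]
    simp only [Fintype.sum_prod_type]
    rw [Finset.sum_range] at h1
    simp only [Finset.sum_range] at h1
    exact h1
  · intro z y ht
    obtain ⟨hz, hy, hu, hi, hr, hn, hle, hcase⟩ := ht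
    have hdpos : (0 : ℝ) < W.d z y := lt_of_lt_of_le (by unfold r0; positivity) hr
    have hdl0 : (0 : ℝ) < dl := by unfold dl; positivity
    have hd10 : (0 : ℝ) < d1 := by unfold d1; positivity
    have hkK : ∀ k, (th k : ℝ) ≤ ρ z → k < K := by
      intro k hk
      by_contra hc
      rw [not_lt] at hc
      have h1 : (2 : ℝ) ^ K ≤ 2 ^ k := pow_le_pow_right₀ (by norm_num) hc
      have h2 := hρK z
      rw [th_real] at hk
      have h3 : (0 : ℝ) < 2 ^ k := by positivity
      linarith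
    -- the main consequence of `far`
    have key : ∀ k, (th k : ℝ) ≤ 2 * dl * ρ z → d1 * ρ z ≤ 2 * th k → (th k : ℝ) ≤ W.d z y / 4 →
        W.d z y / 2 ^ 28 ≤ th k →
        ∃ i : Fin K × Fin 16 × V × Fin N, 1 / 2 ^ 32 * W.d z y ≤
          |TT W ρ i.1 i.2.1 i.2.2.1 i.2.2.2 z - TT W ρ i.1 i.2.1 i.2.2.1 i.2.2.2 y| := by
      intro k h1 h2 h3 h4
      obtain ⟨m, hm, hmid'⟩ := hmid k z
      have hk : k < K := hkK k (by linarith)
      obtain ⟨n, hn', h5⟩ := far W (ρ := ρ) hmid' (chi_list h1 h2) (hN k hk m hm z)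
        (far_pair W hT hbi hz hy hi h3 (m := m))
      refine ⟨(⟨k, hk⟩, ⟨m, hm⟩, rep W k m z, ⟨n, Finset.mem_range.1 hn'⟩), ?_⟩
      refine le_trans ?_ h5
      have : 1 / 2 ^ 32 * W.d z y = (W.d z y / 2 ^ 28) / 16 := by ring
      rw [this]
      linarith
    have hr90 : (2 : ℝ) ^ 90 ≤ W.d z y := by unfold r0 at hr; exact hr
    rcases hcase with hcase | ⟨k, m, hm, hl, hs⟩
    · -- far pair
      have h0 : (16 : ℝ) ≤ dl * ρ z / 2 := by
        have h1 : dl * (2 : ℝ) ^ 90 ≤ dl * ρ z := mul_le_mul_of_nonneg_left (by linarith) hdl0.le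
        have h2 : dl * (2 : ℝ) ^ 90 = 2 ^ 65 := by unfold dl; norm_num
        have h3 : (32 : ℝ) ≤ 2 ^ 65 := by norm_num
        linarith
      obtain ⟨k, h1, h2⟩ := exists_th h0
      have e1' : kap = 8 * dl := by unfold kap dl; norm_num
      rw [e1'] at hcase
      have hρ0 := h.nonneg z
      have h3 : d1 * ρ z ≤ dl * ρ z / 4 := by
        have : d1 ≤ dl / 4 := by unfold d1 dl; norm_num
        nlinarith
      have h4 : dl * W.d z y ≤ dl * ρ z := mul_le_mul_of_nonneg_left hle hdl0.le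
      have h5 : dl * W.d z y = W.d z y / 2 ^ 25 := by unfold dl; ring
      refine key k (by nlinarith) (by linarith) (by nlinarith) ?_
      rw [h5] at h4
      have h6 : W.d z y / 2 ^ 28 = W.d z y / 2 ^ 25 / 8 := by ring
      rw [h6]
      have h7 : (0 : ℝ) ≤ W.d z y / 2 ^ 25 := by positivity
      linarith
    · by_cases hfar : kap * ρ z < 2 * W.d z y
      · -- far pair again
        have h0 : (16 : ℝ) ≤ dl * ρ z / 2 := by
          have h1 : dl * (2 : ℝ) ^ 90 ≤ dl * ρ z := mul_le_mul_of_nonneg_left (by linarith) hdl0.le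
          have h2 : dl * (2 : ℝ) ^ 90 = 2 ^ 65 := by unfold dl; norm_num
          have h3 : (32 : ℝ) ≤ 2 ^ 65 := by norm_num
          linarith
        obtain ⟨k, h1, h2⟩ := exists_th h0
        have e1' : kap = 8 * dl := by unfold kap dl; norm_num
        rw [e1'] at hfar
        have hρ0 := h.nonneg z
        have h3 : d1 * ρ z ≤ dl * ρ z / 4 := by
          have : d1 ≤ dl / 4 := by unfold d1 dl; norm_num
          nlinarith
        have h4 : dl * W.d z y ≤ dl * ρ z := mul_le_mul_of_nonneg_left hle hdl0.le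
        have h5 : dl * W.d z y = W.d z y / 2 ^ 25 := by unfold dl; ring
        refine key k (by nlinarith) (by linarith) (by nlinarith) ?_
        rw [h5] at h4
        have h6 : W.d z y / 2 ^ 28 = W.d z y / 2 ^ 25 / 8 := by ring
        rw [h6]
        have h7 : (0 : ℝ) ≤ W.d z y / 2 ^ 25 := by positivity
        linarith
      · rw [not_lt] at hfar
        have e1' : kap = 8 * dl := by unfold kap dl; norm_num
        obtain ⟨hl1, hl2⟩ := hl
        have hρ0 := h.nonneg z
        by_cases hsmall : (th k : ℝ) < W.d z y / 16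
        · -- replace `k`
          have h0 : (16 : ℝ) ≤ W.d z y / 8 := by
            have : (128 : ℝ) ≤ 2 ^ 90 := by norm_num
            linarith
          obtain ⟨k', h1, h2⟩ := exists_th h0
          rw [e1'] at hfar
          refine key k' (by nlinarith) (by nlinarith) (by linarith) ?_
          have h6 : W.d z y / 2 ^ 28 = W.d z y / 16 / 2 ^ 24 := by ring
          rw [h6]
          have h7 : (0 : ℝ) ≤ W.d z y / 16 := by positivity
          have h8 : W.d z y / 16 / 2 ^ 24 ≤ W.d z y / 16 := div_le_self h7 (by norm_num)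
          linarith
        · rw [not_lt] at hsmall
          have hk : k < K := hkK k (by
            have : dl ≤ 1 := by unfold dl; norm_num
            nlinarith)
          have hlipd := h.lip z y
          have hkap0 : (0 : ℝ) < kap := by unfold kap; positivity
          have h9 : W.d z y / kap ≤ ρ z / 2 := by
            rw [div_le_iff₀ hkap0]; linarith
          have h10 := abs_le.1 (hlipd.trans h9)
          have hc1 : chi (ρ z / th k) = 1 := chi_list (by nlinarith) (by linarith [th_pos k])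
          have hc2 : chi (ρ y / th k) = 1 := by
            apply chi_list
            · have : dl * (ρ z / 2) ≤ dl * ρ y := mul_le_mul_of_nonneg_left (by linarith) hdl0.le
              linarith
            · have : d1 * ρ y ≤ d1 * (3 / 2 * ρ z) := mul_le_mul_of_nonneg_left (by linarith) hd10.le
              linarith [th_pos k]
          obtain ⟨hmz, hs⟩ := hs
          by_cases hre : (W.Bg k m).Reachable z y
          · have hs' : cp * W.d z y ≤ |(W.D k m y : ℝ) - W.D k m z| := by
              rcases hs with hs | hs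
              · exact absurd hre hs
              · exact hs.trans (le_abs_self _)
            have hv : (0 : ℝ) ≤ 1 / 2 ^ 32 * W.d z y := by positivity
            obtain ⟨n, hn', h5⟩ := near W (ρ := ρ) hmz hu hc1 hc2 (hN k hk m hm z) (hN k hk m hm y)
              hv (by
                have : 24 * (1 / 2 ^ 32 * W.d z y) ≤ W.d z y / 16 := by
                  have : (24 * (1 / 2 ^ 32) : ℝ) ≤ 1 / 16 := by norm_num
                  nlinarith
                linarith) hre (by
                refine le_trans ?_ hs'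
                have : (6 * (1 / 2 ^ 32) : ℝ) ≤ cp := by unfold cp; norm_num
                nlinarith)
            exact ⟨(⟨k, hk⟩, ⟨m, hm⟩, rep W k m z, ⟨n, Finset.mem_range.1 hn'⟩), h5⟩
          · obtain ⟨n, hn', h5⟩ := far W (ρ := ρ) hmz hc1 (hN k hk m hm z) (y := y) (Or.inl hre)
            refine ⟨(⟨k, hk⟩, ⟨m, hm⟩, rep W k m z, ⟨n, Finset.mem_range.1 hn'⟩), ?_⟩
            refine le_trans ?_ h5
            have : (1 / 2 ^ 32 : ℝ) ≤ 1 / 256 := by norm_num
            nlinarith

end Vale.Agent.P235.ST.H698
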